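import Vale.Agent.P271L61.Defs
import Mathlib.AlgebraicGeometry.FunctionField

/-!
# Elementary description of presheaves of modules and of their sheafification
-/

open CategoryTheory Opposite AlgebraicGeometry TopologicalSpace

namespace Vale.Agent.P271L

noncomputable section

variable {X : Scheme.{0}}

/-- The sections of a presheaf of modules. -/
def S (P : Pre X) (W : X.Opens) : Type := P.obj (op W)

instance (P : Pre X) (W : X.Opens) : AddCommGroup (S P W) :=
  inferInstanceAs (AddCommGroup (P.obj (op W)))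

instance (P : Pre X) (W : X.Opens) : Module Γ(X, W) (S P W) := (P.obj (op W)).isModule

/-- Restriction of functions. -/
def r {W W' : X.Opens} (e : W' ≤ W) : Γ(X, W) →+* Γ(X, W') :=
  (X.presheaf.map (homOfLE e).op).hom

/-- Restriction of sections. -/
def res (P : Pre X) {W W' : X.Opens} (e : W' ≤ W) : S P W →+ S P W' :=
  (P.presheaf.map (homOfLE e).op).hom

variable {P : Pre X} {W W' W'' : X.Opens}

theorem res_smul (e : W' ≤ W) (a : Γ(X, W)) (p : S P W) :
    res P e (a • p) = r e a • res P e p := P.map_smul (homOfLE e).op a p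

theorem res_res (e : W' ≤ W) (e' : W'' ≤ W') (p : S P W) :
    res P e' (res P e p) = res P (e'.trans e) p :=
  (P.map_comp_apply (homOfLE e).op (homOfLE e').op p).symm

theorem res_self (p : S P W) : res P le_rfl p = p := by
  have h : P.presheaf.map (homOfLE (le_refl W)).op = 𝟙 _ := P.presheaf.map_id _
  unfold res
  rw [h]
  rfl

theorem r_r (e : W' ≤ W) (e' : W'' ≤ W') (a : Γ(X, W)) : r e' (r e a) = r (e'.trans e) a := by
  unfold r
  rw [← CommRingCat.comp_apply, ← X.presheaf.map_comp]
  rfl

/-- The sections `b i` on `W` generate `P` locally. -/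
def Gen (P : Pre X) {ι : Type} [Fintype ι] (W : X.Opens) (b : ι → S P W) : Prop :=
  ∀ (W' : X.Opens) (e : W' ≤ W) (p : S P W') (z : X), z ∈ W' →
    ∃ (W'' : X.Opens) (e' : W'' ≤ W'), z ∈ W'' ∧ ∃ a : ι → Γ(X, W''),
      res P e' p = ∑ i, a i • res P (e'.trans e) (b i)

theorem Gen.mono {ι : Type} [Fintype ι] {b : ι → S P W} (h : Gen P W b) (e : W' ≤ W) :
    Gen P W' fun i => res P e (b i) := by
  intro V e1 p z hz
  obtain ⟨V', e2, hz', a, ha⟩ := h V (e1.trans e) p z hz
  exact ⟨V', e2, hz', a, by simpa only [res_res] using ha⟩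

/-- The section `b` on `W` generates `P` locally. -/
def Gen1 (P : Pre X) (W : X.Opens) (b : S P W) : Prop :=
  ∀ (W' : X.Opens) (e : W' ≤ W) (p : S P W') (z : X), z ∈ W' →
    ∃ (W'' : X.Opens) (e' : W'' ≤ W'), z ∈ W'' ∧ ∃ a : Γ(X, W''),
      res P e' p = a • res P (e'.trans e) b

theorem gen1_iff {b : S P W} : Gen1 P W b ↔ Gen P W fun _ : Unit => b := by
  constructor
  · intro h V e p z hz
    obtain ⟨V', e', hz', a, ha⟩ := h V e p z hz
    exact ⟨V', e', hz', fun _ => a, by simpa using ha⟩
  · intro h V e p z hz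
    obtain ⟨V', e', hz', a, ha⟩ := h V e p z hz
    exact ⟨V', e', hz', a (), by simpa using ha⟩

theorem Gen1.mono {b : S P W} (h : Gen1 P W b) (e : W' ≤ W) : Gen1 P W' (res P e b) :=
  gen1_iff.2 ((gen1_iff.1 h).mono e)

/-! ### The map to the associated sheaf -/

/-- The presheaf underlying a sheaf of modules. -/
def pv (M : X.Modules) : Pre X := M.val

/-- The associated sheaf, as a presheaf. -/
abbrev sh (P : Pre X) : Pre X := pv (sheafify P)

/-- The map from a presheaf to the associated sheaf. -/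
def eta (P : Pre X) (W : X.Opens) : S P W →+ S (sh P) W :=
  ((toSheafify (Opens.grothendieckTopology X) P.presheaf).app (op W)).hom

theorem eta_smul (a : Γ(X, W)) (p : S P W) : eta P W (a • p) = a • eta P W p :=
  (((PresheafOfModules.sheafificationAdjunction (𝟙 X.ringCatSheaf.obj)).unit.app P).app
    (op W)).hom.map_smul a p

theorem eta_res (e : W' ≤ W) (p : S P W) :
    eta P W' (res P e p) = res (sh P) e (eta P W p) :=
  (toSheafify (Opens.grothendieckTopology X) P.presheaf).naturality_apply (homOfLE e).op p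

theorem eta_inj {p q : S P W} (h : eta P W p = eta P W q) {z : X} (hz : z ∈ W) :
    ∃ (W' : X.Opens) (e : W' ≤ W), z ∈ W' ∧ res P e p = res P e q := by
  obtain ⟨V, i, hi, hV⟩ := Presheaf.equalizerSieve_mem (Opens.grothendieckTopology X)
    (toSheafify (Opens.grothendieckTopology X) P.presheaf) (X := op W) p q h z hz
  exact ⟨V, i.le, hV, hi⟩

theorem eta_surj (s : S (sh P) W) {z : X} (hz : z ∈ W) :
    ∃ (W' : X.Opens) (e : W' ≤ W) (p : S P W'), z ∈ W' ∧ eta P W' p = res (sh P) e s := by
  obtain ⟨V, i, ⟨p, hp⟩, hV⟩ := Presheaf.imageSieve_mem (Opens.grothendieckTopology X)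
    (toSheafify (Opens.grothendieckTopology X) P.presheaf) (U := op W) s z hz
  exact ⟨V, i.le, p, hV, hp⟩

theorem Gen.sh {ι : Type} [Fintype ι] {b : ι → S P W} (h : Gen P W b) :
    Gen (sh P) W fun i => eta P W (b i) := by
  intro V e s z hz
  obtain ⟨V1, e1, p, hz1, hp⟩ := eta_surj s hz
  obtain ⟨V2, e2, hz2, a, ha⟩ := h V1 (e1.trans e) p z hz1
  refine ⟨V2, e2.trans e1, hz2, a, ?_⟩
  rw [← res_res e1 e2, ← hp, ← eta_res, ha, map_sum]
  exact Finset.sum_congr rfl fun i _ => by rw [eta_smul, eta_res]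

theorem Gen1.sh {b : S P W} (h : Gen1 P W b) : Gen1 (sh P) W (eta P W b) :=
  gen1_iff.2 (gen1_iff.1 h).sh

/-! ### Values at the generic point -/

variable [IsIntegral X]

theorem gen_mem {z : X} (hz : z ∈ W) : genericPoint X ∈ W :=
  ((genericPoint_spec X).mem_open_set_iff W.isOpen).mpr ⟨z, trivial, hz⟩

/-- The rational function given by a function on a nonempty open set. -/
def gk (W : X.Opens) (h : genericPoint X ∈ W) : Γ(X, W) →+* X.functionField :=
  (X.presheaf.germ W (genericPoint X) h).hom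

theorem gk_r (e : W' ≤ W) (h : genericPoint X ∈ W') (a : Γ(X, W)) :
    gk W' h (r e a) = gk W (e h) a :=
  X.presheaf.germ_res_apply (homOfLE e) _ h a

theorem gk_injective (h : genericPoint X ∈ W) : Function.Injective (gk W h) :=
  germ_injective_of_isIntegral X _ h

/-- A map from the sections of `P` to a vector space over the function field. -/
structure Ev (P : Pre X) (E : Type) [AddCommGroup E] [Module X.functionField E] where
  /-- the map on sections -/
  θ : ∀ W : X.Opens, genericPoint X ∈ W → S P W →+ E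
  smul : ∀ (W : X.Opens) (h : genericPoint X ∈ W) (a : Γ(X, W)) (p : S P W),
    θ W h (a • p) = gk W h a • θ W h p
  res : ∀ {W W' : X.Opens} (e : W' ≤ W) (h : genericPoint X ∈ W') (p : S P W),
    θ W' h (res P e p) = θ W (e h) p

variable {E : Type} [AddCommGroup E] [Module X.functionField E]

theorem Ev.exists_val (T : Ev P E) (h : genericPoint X ∈ W) (s : S (sh P) W) :
    ∃ v : E, ∀ (V : X.Opens) (e : V ≤ W) (hV : genericPoint X ∈ V) (p : S P V),
      eta P V p = P271L.res (sh P) e s → T.θ V hV p = v := by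
  obtain ⟨V0, e0, p0, h0, hp0⟩ := eta_surj s h
  refine ⟨T.θ V0 h0 p0, fun V e hV p hp => ?_⟩
  have h1 : eta P (V ⊓ V0) (P271L.res P inf_le_left p) =
      eta P (V ⊓ V0) (P271L.res P inf_le_right p0) := by
    rw [eta_res, eta_res, hp, hp0, res_res, res_res]
  obtain ⟨V1, e1, h2, h3⟩ := eta_inj h1 (z := genericPoint X) ⟨hV, h0⟩
  rw [res_res, res_res] at h3
  rw [← T.res (e1.trans inf_le_left) h2 p, h3, T.res]

theorem exists_pair (h : genericPoint X ∈ W) (s t : S (sh P) W) :
    ∃ (V : X.Opens) (e : V ≤ W) (p q : S P V), genericPoint X ∈ V ∧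
      eta P V p = res (sh P) e s ∧ eta P V q = res (sh P) e t := by
  obtain ⟨V0, e0, p, h0, hp⟩ := eta_surj s h
  obtain ⟨V1, e1, q, h1, hq⟩ := eta_surj (res (sh P) e0 t) h0
  exact ⟨V1, e1.trans e0, res P e1 p, q, h1, by rw [eta_res, hp, res_res],
    by rw [hq, res_res]⟩

/-- The values at the generic point extend to the associated sheaf. -/
theorem Ev.exists_sh (T : Ev P E) : ∃ T' : Ev (sh P) E,
    ∀ (W : X.Opens) (h : genericPoint X ∈ W) (p : S P W), T'.θ W h (eta P W p) = T.θ W h p := by
  choose v hv using fun (W : X.Opens) (h : genericPoint X ∈ W) (s : S (sh P) W) =>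
    T.exists_val h s
  have hadd : ∀ W h s t, v W h (s + t) = v W h s + v W h t := by
    intro W h s t
    obtain ⟨V, e, p, q, hV, hp, hq⟩ := exists_pair h s t
    rw [← hv W h s V e hV p hp, ← hv W h t V e hV q hq,
      ← hv W h (s + t) V e hV (p + q) (by rw [map_add, map_add, hp, hq]), map_add]
  refine ⟨⟨fun W h => AddMonoidHom.mk' (v W h) (hadd W h), ?_, ?_⟩, ?_⟩
  · intro W h a s
    obtain ⟨V, e, p, hV, hp⟩ := eta_surj s h
    change v W h (a • s) = gk W h a • v W h s
    rw [← hv W h s V e hV p hp,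
      ← hv W h (a • s) V e hV (r e a • p) (by rw [eta_smul, res_smul, hp]), T.smul, gk_r]
  · intro W W' e h s
    obtain ⟨V, e', p, hV, hp⟩ := eta_surj (P271L.res (sh P) e s) h
    change v W' h _ = v W (e h) s
    rw [← hv W' h _ V e' hV p hp, hv W (e h) s V (e'.trans e) hV p (by rw [hp, res_res])]
  · intro W h p
    exact (hv W h _ W le_rfl h p (res_self _).symm).symm

end

end Vale.Agent.P271L
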