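import Mathlib.RingTheory.Smooth.StandardSmoothCotangent
import Mathlib.RingTheory.Etale.Kaehler
import Mathlib.RingTheory.Localization.Module
import Mathlib.Analysis.Complex.Basic

/-!
# Frames of differentials and dual frames of rational vector fields
-/

namespace Vale.Agent.P271L

noncomputable section

variable {A K : Type} [CommRing A] [Algebra ℂ A] [Field K] [Algebra A K] [Algebra ℂ K]
  [IsScalarTower ℂ A K]

/-- The value of a differential at a rational vector field. -/
def pr (v : Derivation ℂ K K) : Ω[A⁄ℂ] →ₗ[A] K := (v.compAlgebraMap A).liftKaehlerDifferential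

theorem pr_D (v : Derivation ℂ K K) (a : A) :
    pr v (KaehlerDifferential.D ℂ A a) = v (algebraMap A K a) :=
  (v.compAlgebraMap A).liftKaehlerDifferential_comp_D a

theorem kd_induction {C : Ω[A⁄ℂ] → Prop} (t : Ω[A⁄ℂ]) (h0 : C 0)
    (h1 : ∀ a, C (KaehlerDifferential.D ℂ A a)) (h2 : ∀ s t, C s → C t → C (s + t))
    (h3 : ∀ (a : A) t, C t → C (a • t)) : C t := by
  have ht : t ∈ Submodule.span A (Set.range (KaehlerDifferential.D ℂ A)) := by
    rw [KaehlerDifferential.span_range_derivation]; trivial
  induction ht using Submodule.span_induction with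
  | mem _ hx => obtain ⟨v, rfl⟩ := hx; exact h1 v
  | zero => exact h0
  | add s t _ _ hs ht => exact h2 s t hs ht
  | smul a t _ ht => exact h3 a t ht

theorem exists_pr : ∃ F : Ω[A⁄ℂ] →+ (Derivation ℂ K K → K),
    (∀ (a : A) p, F (a • p) = algebraMap A K a • F p) ∧
      ∀ a v, F (KaehlerDifferential.D ℂ A a) v = v (algebraMap A K a) :=
  ⟨AddMonoidHom.mk' (fun p v => pr v p) fun p q => funext fun v => map_add (pr v) p q,
    fun a p => funext fun v => ((pr v).map_smul a p).trans (Algebra.smul_def a _),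
    fun a v => pr_D v a⟩

/-- A frame of the differentials of a standard smooth algebra, with the dual frame. -/
theorem exists_frame [IsFractionRing A K] {n : ℕ}
    (h : Algebra.IsStandardSmoothOfRelativeDimension n ℂ A) (F : Ω[A⁄ℂ] →+ (Derivation ℂ K K → K))
    (hF : ∀ (a : A) p, F (a • p) = algebraMap A K a • F p)
    (hD : ∀ a v, F (KaehlerDifferential.D ℂ A a) v = v (algebraMap A K a)) :
    ∃ (b : Fin n → Ω[A⁄ℂ]) (d : Fin n → Derivation ℂ K K),
      (∀ p, ∃ a : Fin n → A, p = ∑ i, a i • b i) ∧
      (∀ j a, ∃ c, d j (algebraMap A K a) = algebraMap A K c) ∧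
      ∀ w : Derivation ℂ K K, w = ∑ i, F (b i) w • d i := by
  have : Nontrivial A := ⟨0, 1, fun h => zero_ne_one (α := K) (by
    rw [← map_zero (algebraMap A K), h, map_one])⟩
  have hs : Algebra.IsStandardSmooth ℂ A :=
    Algebra.IsStandardSmoothOfRelativeDimension.isStandardSmooth n
  have h1 : Module.rank A (Ω[A⁄ℂ]) = n :=
    Algebra.IsStandardSmoothOfRelativeDimension.rank_kaehlerDifferential n
  have h2 : Module.Free A (Ω[A⁄ℂ]) := Algebra.IsStandardSmooth.free_kaehlerDifferential
  have h3 : Module.Finite A (Ω[A⁄ℂ]) := Module.finite_of_rank_eq_nat h1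
  let b : Module.Basis (Fin n) A (Ω[A⁄ℂ]) :=
    Module.finBasisOfFinrankEq A _ (Module.finrank_eq_of_rank_eq h1)
  let B : Module.Basis (Fin n) K (Ω[K⁄ℂ]) :=
    b.ofIsLocalizedModule K (nonZeroDivisors A) (KaehlerDifferential.map ℂ ℂ A K)
  have hB : ∀ i, B i = KaehlerDifferential.map ℂ ℂ A K (b i) := fun i =>
    b.ofIsLocalizedModule_apply K (nonZeroDivisors A) (KaehlerDifferential.map ℂ ℂ A K) i
  refine ⟨b, fun j => (B.coord j).compDer (KaehlerDifferential.D ℂ K),
    fun p => ⟨b.repr p, (b.sum_repr p).symm⟩,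
    fun j a => ⟨b.repr (KaehlerDifferential.D ℂ A a) j, ?_⟩, fun w => ?_⟩
  · change B.repr (KaehlerDifferential.D ℂ K (algebraMap A K a)) j = _
    rw [← KaehlerDifferential.map_D ℂ ℂ A K]
    exact b.ofIsLocalizedModule_repr_apply K (nonZeroDivisors A) _ _ j
  · have h4 : ∀ p, F p w = w.liftKaehlerDifferential (KaehlerDifferential.map ℂ ℂ A K p) := by
      intro p
      induction p using kd_induction with
      | h0 => rw [map_zero, map_zero, map_zero, Pi.zero_apply]
      | h1 a => rw [hD, KaehlerDifferential.map_D, Derivation.liftKaehlerDifferential_comp_D]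
      | h2 s t hs ht => rw [map_add, map_add, map_add, Pi.add_apply, hs, ht]
      | h3 a t ht =>
        rw [hF, map_smul, Pi.smul_apply, ht, ← algebraMap_smul K a, map_smul]
    refine Derivation.ext fun g => ?_
    have h5 : (∑ i, F (b i) w • (B.coord i).compDer (KaehlerDifferential.D ℂ K)) g =
        ∑ i, F (b i) w • B.repr (KaehlerDifferential.D ℂ K g) i := by
      exact (congrFun (map_sum (Derivation.coeFnAddMonoidHom (R := ℂ) (A := K) (M := K))
        (fun i => F (b i) w • (B.coord i).compDer (KaehlerDifferential.D ℂ K)) Finset.univ)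
          g).trans (Finset.sum_apply _ _ _)
    rw [h5, ← w.liftKaehlerDifferential_comp_D g]
    conv_lhs => rw [← B.sum_repr (KaehlerDifferential.D ℂ K g), map_sum]
    exact Finset.sum_congr rfl fun i _ => by
      rw [map_smul, h4, hB, smul_eq_mul, smul_eq_mul, mul_comm]

end

end Vale.Agent.P271L
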