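import Vale.Agent.P271L61.A

/-!
# Local frames of tensor products
-/

open CategoryTheory Opposite AlgebraicGeometry TopologicalSpace

namespace Vale.Agent.P271L

noncomputable section

variable {X : Scheme.{0}} {P Q : Pre X} {W W' : X.Opens}

/-- The tensor product of presheaves. -/
abbrev tens (P Q : Pre X) : Pre X := PresheafOfModules.Monoidal.tensorObj (R := X.presheaf) P Q

/-- Pure tensors. -/
def tm (p : S P W) (q : S Q W) : S (tens P Q) W :=
  (p ⊗ₜ[Γ(X, W)] q : TensorProduct Γ(X, W) (S P W) (S Q W))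

theorem res_tm (e : W' ≤ W) (p : S P W) (q : S Q W) :
    res (tens P Q) e (tm p q) = tm (res P e p) (res Q e q) := rfl

theorem smul_tm (a : Γ(X, W)) (p : S P W) (q : S Q W) : tm (a • p) q = a • tm p q :=
  (TensorProduct.smul_tmul' a p q).symm

theorem tm_smul (a : Γ(X, W)) (p : S P W) (q : S Q W) : tm p (a • q) = a • tm p q :=
  TensorProduct.tmul_smul a p q

theorem tens_induction {C : S (tens P Q) W → Prop} (t : S (tens P Q) W) (h0 : C 0)
    (h1 : ∀ p q, C (tm p q)) (h2 : ∀ s t, C s → C t → C (s + t)) : C t :=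
  TensorProduct.induction_on (motive := fun t : TensorProduct Γ(X, W) (S P W) (S Q W) => C t)
    t h0 h1 h2

theorem Gen1.tens {b : S P W} {c : S Q W} (hb : Gen1 P W b) (hc : Gen1 Q W c) :
    Gen1 (tens P Q) W (tm b c) := by
  intro V e t z hz
  induction t using tens_induction with
  | h0 => exact ⟨V, le_rfl, hz, 0, by rw [map_zero, zero_smul]⟩
  | h1 p q =>
    obtain ⟨V1, e1, hz1, a, ha⟩ := hb V e p z hz
    obtain ⟨V2, e2, hz2, a', ha'⟩ := hc V1 (e1.trans e) (res Q e1 q) z hz1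
    refine ⟨V2, e2.trans e1, hz2, r e2 a * a', ?_⟩
    rw [res_res] at ha'
    rw [res_tm, res_tm, ha', ← res_res e1 e2 p, ha, res_smul, res_res, smul_tm, tm_smul,
      mul_smul]
  | h2 s t hs ht =>
    obtain ⟨V1, e1, hz1, a, ha⟩ := hs
    obtain ⟨V2, e2, hz2, a', ha'⟩ := ht
    refine ⟨V1 ⊓ V2, inf_le_left.trans e1, ⟨hz1, hz2⟩, r inf_le_left a + r inf_le_right a', ?_⟩
    have h1 := congrArg (res (P271L.tens P Q) (inf_le_left : V1 ⊓ V2 ≤ V1)) ha
    have h2 := congrArg (res (P271L.tens P Q) (inf_le_right : V1 ⊓ V2 ≤ V2)) ha'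
    rw [res_smul, res_res, res_res] at h1 h2
    rw [map_add, h1, h2, add_smul]

variable [IsIntegral X]

theorem Ev.exists_tens (T : Ev P X.functionField) (T' : Ev Q X.functionField) :
    ∃ T'' : Ev (tens P Q) X.functionField, ∀ (W : X.Opens) (h : genericPoint X ∈ W)
      (p : S P W) (q : S Q W), T''.θ W h (tm p q) = T.θ W h p * T'.θ W h q := by
  let F : ∀ W : X.Opens, genericPoint X ∈ W → S (tens P Q) W →+ X.functionField := fun W h =>
    TensorProduct.liftAddHom (R := Γ(X, W)) (M := S P W) (N := S Q W)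
      ((AddMonoidHom.mul.comp (T.θ W h)).compl₂ (T'.θ W h)) fun a p q => by
        change T.θ W h (a • p) * T'.θ W h q = T.θ W h p * T'.θ W h (a • q)
        rw [T.smul, T'.smul, smul_eq_mul, smul_eq_mul]
        ring
  have hF : ∀ W h p q, F W h (tm p q) = T.θ W h p * T'.θ W h q := fun W h p q => rfl
  refine ⟨⟨F, fun W h a t => ?_, fun {W W'} e h t => ?_⟩, hF⟩
  · induction t using tens_induction with
    | h0 => rw [smul_zero, map_zero, smul_zero]
    | h1 p q => rw [← smul_tm, hF, hF, T.smul, smul_eq_mul, smul_eq_mul, mul_assoc]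
    | h2 s t hs ht => rw [smul_add, map_add, map_add, hs, ht, smul_add]
  · induction t using tens_induction with
    | h0 => rw [map_zero, map_zero, map_zero]
    | h1 p q => rw [res_tm, hF, hF, T.res, T'.res]
    | h2 s t hs ht => rw [map_add, map_add, map_add, hs, ht]

/-- `u` is the value of a local generator of `P` near `x`. -/
def Fr (T : Ev P X.functionField) (x : X) (u : X.functionField) : Prop :=
  u ≠ 0 ∧ ∃ (W : X.Opens) (hx : x ∈ W) (b : S P W), Gen1 P W b ∧ T.θ W (gen_mem hx) b = u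

theorem Fr.shrink {T : Ev P X.functionField} {x : X} {u : X.functionField} (h : Fr T x u)
    {V : X.Opens} (hV : x ∈ V) : ∃ (W : X.Opens) (hx : x ∈ W) (b : S P W), W ≤ V ∧
      Gen1 P W b ∧ T.θ W (gen_mem hx) b = u := by
  obtain ⟨-, W, hx, b, hb, hu⟩ := h
  exact ⟨W ⊓ V, ⟨hx, hV⟩, res P inf_le_left b, inf_le_right, hb.mono _,
    (T.res _ _ _).trans hu⟩

theorem exists_ev_tensor {M N : X.Modules} (T : Ev (pv M) X.functionField)
    (T' : Ev (pv N) X.functionField) : ∃ T'' : Ev (pv (tensor M N)) X.functionField,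
      ∀ x u w, Fr T x u → Fr T' x w → Fr T'' x (u * w) := by
  obtain ⟨T1, h1⟩ := T.exists_tens T'
  obtain ⟨T2, h2⟩ := T1.exists_sh
  refine ⟨T2, fun x u w hu hw => ⟨mul_ne_zero hu.1 hw.1, ?_⟩⟩
  obtain ⟨-, W, hx, b, hb, hbu⟩ := hu
  obtain ⟨V, hx', c, e, hc, hcw⟩ := hw.shrink hx
  refine ⟨V, hx', eta (tens (pv M) (pv N)) V (tm (res (pv M) e b) c), ((hb.mono e).tens hc).sh,
    (h2 _ _ _).trans ?_⟩
  rw [h1, T.res, hbu, hcw]

/-- The values of the functions at the generic point. -/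
def evTriv (X : Scheme.{0}) [IsIntegral X] : Ev (pv (triv X)) X.functionField where
  θ W h := (gk W h).toAddMonoidHom
  smul W h a p := (gk W h).map_mul a p
  res e h p := gk_r e h p

theorem fr_triv (x : X) : Fr (evTriv X) x 1 := by
  refine ⟨one_ne_zero, ⊤, trivial, (1 : Γ(X, ⊤)), fun V e p z hz => ⟨V, le_rfl, hz, p, ?_⟩,
    (gk ⊤ _).map_one⟩
  rw [res_self]
  exact ((congrArg (fun t : Γ(X, V) => (show Γ(X, V) from p) * t) (r e).map_one).trans
    (mul_one _)).symm

theorem exists_ev_pow {L : X.Modules} (T : Ev (pv L) X.functionField) (m : ℕ) :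
    ∃ T' : Ev (pv (pow L m)) X.functionField, ∀ x u, Fr T x u → Fr T' x (u ^ m) := by
  induction m with
  | zero => exact ⟨evTriv X, fun x u _ => by rw [pow_zero]; exact fr_triv x⟩
  | succ m ih =>
    obtain ⟨T1, h1⟩ := ih
    obtain ⟨T2, h2⟩ := exists_ev_tensor T1 T
    exact ⟨T2, fun x u hu => by rw [pow_succ]; exact h2 x _ _ (h1 x u hu) hu⟩

end

end Vale.Agent.P271L
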