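import Vale.Agent.P271L61.B
import Vale.Agent.P299.G.LocEq
import Mathlib.Topology.Sheaves.SheafCondition.UniqueGluing

/-!
# Sections of a sheaf with local frames, as rational functions
-/

open CategoryTheory Opposite AlgebraicGeometry TopologicalSpace

namespace Vale.Agent.P271L

open Vale.Agent.P299.G

noncomputable section

variable {X : Scheme.{0}} {P : Pre X} {M : X.Modules} {W W' V : X.Opens}

/-- The sheaf of abelian groups underlying a sheaf of modules. -/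
def ab (M : X.Modules) : TopCat.Sheaf Ab X := ⟨M.presheaf, M.isSheaf⟩

theorem eq_of_loc {s t : S (pv M) V}
    (h : ∀ z ∈ V, ∃ (W : X.Opens) (e : W ≤ V), z ∈ W ∧ res (pv M) e s = res (pv M) e t) :
    s = t := by
  choose U e hz hU using h
  exact (ab M).eq_of_locally_eq' (fun z : V => U z.1 z.2) V (fun z => homOfLE (e z.1 z.2))
    (fun z hzV => Opens.mem_iSup.2 ⟨⟨z, hzV⟩, hz z hzV⟩) s t fun z => hU z.1 z.2

theorem exists_glue (U : V → X.Opens) (e : ∀ z, U z ≤ V) (hz : ∀ z : V, z.1 ∈ U z)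
    (t : ∀ z, S (pv M) (U z))
    (ht : ∀ z w, res (pv M) (inf_le_left : U z ⊓ U w ≤ U z) (t z) =
      res (pv M) (inf_le_right : U z ⊓ U w ≤ U w) (t w)) :
    ∃ s : S (pv M) V, ∀ z, res (pv M) (e z) s = t z := by
  obtain ⟨s, hs, -⟩ := (ab M).existsUnique_gluing' U V (fun z => homOfLE (e z))
    (fun z hzV => Opens.mem_iSup.2 ⟨⟨z, hzV⟩, hz ⟨z, hzV⟩⟩) (fun z => t z) fun z w => ht z w
  exact ⟨s, hs⟩

variable [IsIntegral X]

theorem toK_germ {x : X} (hx : x ∈ W) (a : Γ(X, W)) :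
    toK x (X.presheaf.germ W x hx a) = gk W (gen_mem hx) a :=
  X.presheaf.germ_stalkSpecializes_apply hx ((genericPoint_spec X).specializes trivial) a

variable {T : Ev P X.functionField} {x : X} {u : X.functionField}

theorem Fr.loc (h : Fr T x u) (hx : x ∈ V) (t : S P V) :
    ∃ (W : X.Opens) (e : W ≤ V) (hW : x ∈ W) (a : Γ(X, W)) (b : S P W), res P e t = a • b ∧
      T.θ W (gen_mem hW) b = u ∧ T.θ V (gen_mem hx) t = gk W (gen_mem hW) a * u := by
  obtain ⟨W, hW, b, e, hb, hu⟩ := h.shrink hx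
  obtain ⟨W', e', hW', a, ha⟩ := hb W le_rfl (res P e t) x hW
  rw [res_res] at ha
  have h1 : T.θ W' (gen_mem hW') (res P (e'.trans le_rfl) b) = u := (T.res _ _ _).trans hu
  refine ⟨W', e'.trans e, hW', a, _, ha, h1, ?_⟩
  rw [← T.res (e'.trans e) (gen_mem hW'), ha, T.smul, h1, smul_eq_mul]

theorem Fr.exists_stalk (h : Fr T x u) (hx : x ∈ V) (t : S P V) :
    ∃ c : X.presheaf.stalk x, T.θ V (gen_mem hx) t = toK x c * u := by
  obtain ⟨W, e, hW, a, b, -, -, h1⟩ := h.loc hx t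
  exact ⟨X.presheaf.germ W x hW a, by rw [h1, toK_germ]⟩

/-- The values of two local generators differ by a unit. -/
theorem Fr.unit {w : X.functionField} (h : Fr T x u) (h' : Fr T x w) :
    ∃ c : X.presheaf.stalk x, IsUnit c ∧ w = toK x c * u := by
  obtain ⟨hw, W, hW, b, -, hb⟩ := id h'
  obtain ⟨hu, W', hW', b', -, hb'⟩ := id h
  obtain ⟨c, hc⟩ := h.exists_stalk hW b
  obtain ⟨c', hc'⟩ := h'.exists_stalk hW' b'
  rw [hb] at hc
  rw [hb'] at hc'
  refine ⟨c, IsUnit.of_mul_eq_one c' (toK_injective x (mul_right_cancel₀ hw ?_)), hc⟩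
  rw [map_mul, map_one, one_mul, mul_assoc, ← hc', ← hc]

theorem Fr.of_specializes (h : Fr T x u) {y : X} (hy : y ⤳ x) : Fr T y u := by
  obtain ⟨hu, W, hW, b, hb, h1⟩ := h
  exact ⟨hu, W, hy.mem_open W.isOpen hW, b, hb, h1⟩

theorem Fr.nhds (h : Fr T x u) : ∃ W : X.Opens, x ∈ W ∧ ∀ y ∈ W, Fr T y u := by
  obtain ⟨hu, W, hW, b, hb, h1⟩ := h
  exact ⟨W, hW, fun y hy => ⟨hu, W, hy, b, hb, h1⟩⟩

variable {T : Ev (pv M) X.functionField}

theorem vanishesAt_iff (h : Fr T x u) (s : Γ(M, ⊤)) {c : X.presheaf.stalk x}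
    (hc : T.θ ⊤ trivial s = toK x c * u) : VanishesAt s x ↔ ¬ IsUnit c := by
  have key : ∀ (W : X.Opens) (hW : x ∈ W) (a : Γ(X, W)),
      a ∈ RingHom.ker (X.evaluation W x hW).hom ↔ ¬ IsUnit (X.presheaf.germ W x hW a) :=
    fun W hW a => (X.evaluation_eq_zero_iff_notMem_basicOpen x hW a).trans
      (X.mem_basicOpen a x hW).not
  constructor
  · rintro ⟨W, hW, hs⟩
    have h1 : ∀ t ∈ RingHom.ker (X.evaluation W x hW).hom • (⊤ : Submodule Γ(X, W) Γ(M, W)),
        ∃ d ∈ nonunits (X.presheaf.stalk x), T.θ W (gen_mem hW) t = toK x d * u := by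
      intro t ht
      refine Submodule.smul_induction_on ht (fun a ha t _ => ?_) ?_
      · obtain ⟨d, hd⟩ := h.exists_stalk hW t
        refine ⟨X.presheaf.germ W x hW a * d,
          mul_mem_nonunits_left ((key W hW a).1 ha), (T.smul W _ a t).trans ?_⟩
        rw [hd, map_mul, toK_germ, smul_eq_mul, mul_assoc]
      · rintro t t' ⟨d, hd, h2⟩ ⟨d', hd', h3⟩
        refine ⟨d + d', IsLocalRing.nonunits_add hd hd', ((T.θ W _).map_add t t').trans ?_⟩
        rw [h2, h3, map_add, add_mul]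
    obtain ⟨d, hd, h2⟩ := h1 _ hs
    have h3 : toK x d * u = toK x c * u := h2.symm.trans ((T.res le_top (gen_mem hW) s).trans hc)
    rwa [← toK_injective x (mul_right_cancel₀ h.1 h3)]
  · intro hn
    obtain ⟨W, e, hW, a, b, h1, -, h2⟩ := h.loc (V := ⊤) trivial s
    have h3 : toK x c * u = toK x (X.presheaf.germ W x hW a) * u := by
      rw [toK_germ, ← h2, ← hc]
    rw [toK_injective x (mul_right_cancel₀ h.1 h3)] at hn
    have h4 : res (pv M) e s ∈
        RingHom.ker (X.evaluation W x hW).hom • (⊤ : Submodule Γ(X, W) (S (pv M) W)) := by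
      rw [h1]
      exact Submodule.smul_mem_smul ((key W hW a).2 hn) trivial
    exact ⟨W, hW, h4⟩

theorem ev_inj (h : ∀ z ∈ V, ∃ u, Fr T z u) {s t : S (pv M) V}
    (hst : ∀ hV, T.θ V hV s = T.θ V hV t) : s = t := by
  refine eq_of_loc fun z hz => ?_
  obtain ⟨u, hu⟩ := h z hz
  obtain ⟨W, e, hW, a, b, h1, -, h2⟩ := hu.loc hz (s - t)
  rw [map_sub, hst, sub_self] at h2
  have h3 : a = 0 := gk_injective (gen_mem hW)
    (((mul_eq_zero.1 h2.symm).resolve_right hu.1).trans (map_zero _).symm)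
  rw [h3, zero_smul, map_sub, sub_eq_zero] at h1
  exact ⟨W, e, hW, h1⟩

theorem exists_of_ev {g : X.functionField}
    (h : ∀ z ∈ V, ∃ u, Fr T z u ∧ ∃ c : X.presheaf.stalk z, g = toK z c * u) :
    ∃ s : S (pv M) V, ∀ hV, T.θ V hV s = g := by
  have h1 : ∀ z : V, ∃ (W : X.Opens) (hW : z.1 ∈ W) (t : S (pv M) W), W ≤ V ∧
      T.θ W (gen_mem hW) t = g := by
    intro z
    obtain ⟨u, hu, c, hc⟩ := h z.1 z.2
    obtain ⟨U, hU, a, rfl⟩ := X.presheaf.exists_germ_eq c
    obtain ⟨W, hW, b, e, -, hb⟩ := hu.shrink (V := U ⊓ V) ⟨hU, z.2⟩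
    refine ⟨W, hW, r (e.trans inf_le_left) a • b, e.trans inf_le_right, ?_⟩
    rw [T.smul, hb, gk_r, hc, toK_germ, smul_eq_mul]
  choose U hU t e ht using h1
  obtain ⟨s, hs⟩ := exists_glue U e hU t fun z w => ev_inj
    (fun y hy => (h y (e z ((inf_le_left : U z ⊓ U w ≤ U z) hy))).imp fun _ k => k.1)
    fun hV => by rw [T.res, T.res, ht, ht]
  refine ⟨s, fun hV => ?_⟩
  rw [← T.res (e ⟨_, hV⟩) (gen_mem (hU ⟨_, hV⟩)), hs, ht]

/-- A local generator is a basis on every smaller open set. -/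
theorem bij_of_gen {b : S (pv M) W} (hb : Gen1 (pv M) W b) (hW : genericPoint X ∈ W)
    (hu : T.θ W hW b ≠ 0) (e : V ≤ W) :
    Function.Bijective fun a : Γ(X, V) => a • res (pv M) e b := by
  have hF : ∀ z ∈ V, Fr T z (T.θ W hW b) := fun z hz => ⟨hu, W, e hz, b, hb, rfl⟩
  constructor
  · intro a a' h
    refine ev_inj (M := triv X) (T := evTriv X) (fun z _ => ⟨1, fr_triv z⟩) fun hV => ?_
    have h1 := congrArg (T.θ V hV) h
    simp only [T.smul, T.res, smul_eq_mul] at h1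
    exact mul_right_cancel₀ hu h1
  · intro p
    by_cases hV : genericPoint X ∈ V
    · obtain ⟨a, ha⟩ := exists_of_ev (M := triv X) (T := evTriv X) (V := V)
        (g := T.θ V hV p / T.θ W hW b) fun z hz => ⟨1, fr_triv z, by
          obtain ⟨c, hc⟩ := (hF z hz).exists_stalk hz p
          exact ⟨c, by rw [mul_one, div_eq_iff hu]; exact hc⟩⟩
      refine ⟨a, ev_inj (fun z hz => ⟨_, hF z hz⟩) fun hV' => (T.smul V hV' a _).trans ?_⟩
      have h1 : gk V hV' a = T.θ V hV p / T.θ W hW b := ha hV'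
      rw [h1, T.res, smul_eq_mul, div_mul_cancel₀ _ hu]
    · exact ⟨0, eq_of_loc fun z hz => absurd (gen_mem hz) hV⟩

end

end Vale.Agent.P271L
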