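import Mathlib.AlgebraicGeometry.Modules.Sheaf
import Mathlib.AlgebraicGeometry.Morphisms.Proper
import Mathlib.AlgebraicGeometry.Morphisms.Smooth
import Mathlib.AlgebraicGeometry.ResidueField
import Mathlib.Algebra.Category.ModuleCat.Presheaf.Monoidal
import Mathlib.Algebra.Category.ModuleCat.Presheaf.Sheafification
import Mathlib.Algebra.Category.ModuleCat.Differentials.Presheaf
import Mathlib.Algebra.Category.ModuleCat.ExteriorPower
import Mathlib.Analysis.Complex.Basic

/-!
# Line bundles as invertible sheaves, the canonical sheaf, ample and free line bundles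
-/

open CategoryTheory Opposite AlgebraicGeometry

namespace Vale.Agent.P271L

noncomputable section

section Wedge

variable {A B : Type} [CommRing A] [CommRing B] {φ : A →+* B} {M : ModuleCat.{0} A}
  {N : ModuleCat.{0} B} (g : M ⟶ (ModuleCat.restrictScalars φ).obj N) (n : ℕ)

/-- `(v_1, …, v_n) ↦ g v_1 ∧ … ∧ g v_n`, for a map `g` which is linear over `φ`. -/
def wedgeFun (v : Fin n → M) : (ModuleCat.restrictScalars φ).obj (N.exteriorPower n) :=
  ModuleCat.exteriorPower.mk (M := N) fun j => g (v j)

theorem wedgeFun_update [DecidableEq (Fin n)] (v : Fin n → M) (i : Fin n) (x : M) :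
    wedgeFun g n (Function.update v i x) =
      exteriorPower.ιMulti B n (M := N) (Function.update (fun j => g (v j)) i (g x)) :=
  congrArg (exteriorPower.ιMulti B n (M := N))
    (funext fun j => Function.apply_update (fun _ y => (g y : N)) v i x j)

theorem wedgeFun_add [DecidableEq (Fin n)] (v : Fin n → M) (i : Fin n) (x y : M) :
    wedgeFun g n (Function.update v i (x + y)) =
      wedgeFun g n (Function.update v i x) + wedgeFun g n (Function.update v i y) := by
  rw [wedgeFun_update, wedgeFun_update, wedgeFun_update, map_add]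
  exact (exteriorPower.ιMulti B n (M := N)).map_update_add _ i _ _

theorem wedgeFun_smul [DecidableEq (Fin n)] (v : Fin n → M) (i : Fin n) (c : A) (x : M) :
    wedgeFun g n (Function.update v i (c • x)) = c • wedgeFun g n (Function.update v i x) := by
  rw [wedgeFun_update, wedgeFun_update, map_smul]
  exact (exteriorPower.ιMulti B n (M := N)).map_update_smul _ i (φ c) _

theorem wedgeFun_zero (v : Fin n → M) (i j : Fin n) (h : v i = v j) (hij : i ≠ j) :
    wedgeFun g n v = 0 :=
  (exteriorPower.ιMulti B n (M := N)).map_eq_zero_of_eq _ (congrArg g h) hij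

/-- The map induced by `g` on the `n`-th exterior powers. -/
def wedgeMap : M.exteriorPower n ⟶ (ModuleCat.restrictScalars φ).obj (N.exteriorPower n) :=
  ModuleCat.exteriorPower.desc
    ⟨⟨wedgeFun g n, wedgeFun_add g n, wedgeFun_smul g n⟩, wedgeFun_zero g n⟩

theorem wedgeMap_mk (v : Fin n → M) :
    wedgeMap g n (ModuleCat.exteriorPower.mk v) = wedgeFun g n v :=
  ModuleCat.exteriorPower.desc_mk _ _

/-- The identity map, as a map linear over `φ = id`. -/
def idOver {φ : A →+* A} (h : φ = RingHom.id A) (M : ModuleCat.{0} A) :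
    M ⟶ (ModuleCat.restrictScalars φ).obj M :=
  (ModuleCat.restrictScalarsId' φ h).inv.app M

/-- The composition of a map linear over `φ` and of a map linear over `ψ`. -/
def compOver {D : Type} [CommRing D] {ψ : B →+* D} {χ : A →+* D} (h : χ = ψ.comp φ)
    {L : ModuleCat.{0} D} (k : N ⟶ (ModuleCat.restrictScalars ψ).obj L) :
    M ⟶ (ModuleCat.restrictScalars χ).obj L :=
  g ≫ (ModuleCat.restrictScalars φ).map k ≫ (ModuleCat.restrictScalarsComp' φ ψ χ h).inv.app L

end Wedge

section PreWedge

variable {C : Type} [Category.{0} C]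

/-- A presheaf of commutative rings, as a presheaf of rings. -/
abbrev und (R : Cᵒᵖ ⥤ CommRingCat.{0}) : Cᵒᵖ ⥤ RingCat.{0} := R ⋙ forget₂ CommRingCat RingCat

variable {R : Cᵒᵖ ⥤ CommRingCat.{0}} (n : ℕ) (P : PresheafOfModules.{0} (und R))

theorem preWedge_id (U : Cᵒᵖ) : wedgeMap (P.map (𝟙 U)) n =
    idOver (congrArg RingCat.Hom.hom ((und R).map_id U)) ((P.obj U).exteriorPower n) :=
  ModuleCat.exteriorPower.hom_ext (ModuleCat.AlternatingMap.ext fun v =>
    (wedgeMap_mk _ n v).trans (congrArg (ModuleCat.exteriorPower.mk (M := P.obj U))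
      (funext fun j => by rw [P.map_id]; rfl)))

theorem preWedge_comp {U V W : Cᵒᵖ} (i : U ⟶ V) (k : V ⟶ W) : wedgeMap (P.map (i ≫ k)) n =
    compOver (wedgeMap (P.map i) n) (congrArg RingCat.Hom.hom ((und R).map_comp i k))
      (wedgeMap (P.map k) n) :=
  ModuleCat.exteriorPower.hom_ext (ModuleCat.AlternatingMap.ext fun v =>
    (wedgeMap_mk _ n v).trans (((congrArg (ModuleCat.exteriorPower.mk (M := P.obj W))
      (funext fun j => by rw [P.map_comp]; rfl)).trans (wedgeMap_mk (P.map k) n _).symm).trans
        (congrArg (wedgeMap (P.map k) n) (wedgeMap_mk (P.map i) n v).symm)))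

/-- The presheaf `U ↦ ⋀^n P(U)`. -/
def preWedge : PresheafOfModules.{0} (und R) where
  obj U := (P.obj U).exteriorPower n
  map i := wedgeMap (P.map i) n
  map_id := preWedge_id n P
  map_comp := preWedge_comp n P

end PreWedge

/-- `m` lies in `I • M`. -/
def MemSmul {A M : Type} [CommRing A] [AddCommGroup M] [Module A M] (I : Ideal A) (m : M) : Prop :=
  m ∈ I • (⊤ : Submodule A M)

variable {X : Scheme.{0}}

/-- Presheaves of `O_X`-modules. -/
abbrev Pre (X : Scheme.{0}) : Type 1 := PresheafOfModules.{0} (und X.presheaf)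

/-- The sheaf of `O_X`-modules associated with a presheaf of `O_X`-modules. -/
def sheafify (P : Pre X) : X.Modules :=
  (PresheafOfModules.sheafification (𝟙 X.ringCatSheaf.obj)).obj P

/-- The structure sheaf `O_X`, as a module over itself. -/
def triv (X : Scheme.{0}) : X.Modules := SheafOfModules.unit X.ringCatSheaf

/-- `M ⊗ N`: the sheaf associated with `U ↦ M(U) ⊗ N(U)`. -/
def tensor (M N : X.Modules) : X.Modules :=
  sheafify (PresheafOfModules.Monoidal.tensorObj (R := X.presheaf) M.val N.val)

/-- The tensor powers of `L`. -/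
def pow (L : X.Modules) : ℕ → X.Modules
  | 0 => triv X
  | m + 1 => tensor (pow L m) L

/-- The constant functions on an open set of a scheme over `ℂ`. -/
def cst (f : X ⟶ Spec (CommRingCat.of ℂ)) (U : X.Opens) : CommRingCat.of ℂ ⟶ Γ(X, U) :=
  (Scheme.ΓSpecIso (CommRingCat.of ℂ)).inv ≫ f.appTop ≫ X.presheaf.map (homOfLE le_top).op

theorem cst_map (f : X ⟶ Spec (CommRingCat.of ℂ)) {U V : X.Opensᵒᵖ} (i : U ⟶ V) :
    cst f U.unop ≫ X.presheaf.map i = cst f V.unop := by
  rw [cst, cst, Category.assoc, Category.assoc, ← X.presheaf.map_comp]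
  rfl

/-- The constant functions, as a map from the constant presheaf `ℂ` to `O_X`. -/
def const (f : X ⟶ Spec (CommRingCat.of ℂ)) :
    (Functor.const X.Opensᵒᵖ).obj (CommRingCat.of ℂ) ⟶ X.presheaf where
  app U := cst f U.unop
  naturality _ _ i := (Category.id_comp _).trans (cst_map f i).symm

/-- The cotangent sheaf: the sheaf associated with `U ↦ Ω_{O(U)/ℂ}` (Kähler differentials). -/
def cotangent (f : X ⟶ Spec (CommRingCat.of ℂ)) : X.Modules :=
  sheafify (PresheafOfModules.DifferentialsConstruction.relativeDifferentials' (const f))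

/-- The canonical sheaf `K_X = ⋀^n Ω_X` of a scheme of dimension `n` over `ℂ`. -/
def canonical (f : X ⟶ Spec (CommRingCat.of ℂ)) (n : ℕ) : X.Modules :=
  sheafify (preWedge (R := X.presheaf) n (cotangent f).val)

/-- A line bundle: an `O_X`-module which is locally isomorphic to `O_X`. -/
def IsLineBundle (L : X.Modules) : Prop :=
  ∀ x : X, ∃ U : X.Opens, x ∈ U ∧ Nonempty (L.restrict U.ι ≅ triv U)

/-- The global section `s` vanishes at `x`: on some open neighbourhood `W` of `x` it lies in
`I • M(W)`, with `I` the ideal of the functions on `W` with value zero at `x`. -/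
def VanishesAt {M : X.Modules} (s : Γ(M, ⊤)) (x : X) : Prop :=
  ∃ (W : X.Opens) (hx : x ∈ W), MemSmul (M := Γ(M, W)) (RingHom.ker (X.evaluation W x hx).hom)
    (M.presheaf.map (homOfLE le_top).op s)

/-- `L` is ample: every point lies in an affine open set `X_s = {y | s(y) ≠ 0}`, with `s` a global
section of a positive power of `L`. -/
def IsAmple (L : X.Modules) : Prop :=
  ∀ x : X, ∃ (m : ℕ) (s : Γ(pow L m, ⊤)) (U : X.Opens), 0 < m ∧ IsAffineOpen U ∧ x ∈ U ∧
    ∀ y : X, y ∈ U ↔ ¬ VanishesAt s y

/-- The global sections of `M` have no common zero. -/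
def IsGloballyGenerated (M : X.Modules) : Prop := ∀ x : X, ∃ s : Γ(M, ⊤), ¬ VanishesAt s x

end

end Vale.Agent.P271L
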