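import Vale.Agent.P271L23.LB
import Vale.Agent.P297L41.E3
import Vale.Agent.P297L93.IntG
import Vale.Agent.P271.Sch.FujFinal

/-!
# Line bundles and divisors; the final statement from the hub statement
-/

open CategoryTheory Opposite AlgebraicGeometry TopologicalSpace Order

namespace Vale.Agent.P271L

open Vale.Agent.P299.G Vale.Agent.P299 Vale.Agent.P271

noncomputable section

section Sch

variable {X : Scheme.{0}} [IsIntegral X] [IsLocallyNoetherian X] {M : X.Modules}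
  {T : Ev (pv M) X.functionField}

theorem Fr.ord_eq {y : X} {u w : X.functionField} (h : Fr T y u) (h' : Fr T y w) :
    Scheme.ord w y = Scheme.ord u y := by
  obtain ⟨c, hc, h1⟩ := h.unit h'
  rw [h1, Scheme.ord_mul (toK_ne_zero hc.ne_zero) h.1, ord_toK_of_isUnit hc, zero_add]

variable {u : X → X.functionField} (hu : ∀ x, Fr T x (u x))

include hu

theorem ord_le_sec (s : Γ(M, ⊤)) (h0 : T.θ ⊤ trivial s ≠ 0) (y : X) :
    Scheme.ord (u y) y ≤ Scheme.ord (T.θ ⊤ trivial s) y := by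
  obtain ⟨c, hc⟩ := (hu y).exists_stalk (V := ⊤) trivial s
  rw [hc] at h0 ⊢
  rw [Scheme.ord_mul (left_ne_zero_of_mul h0) (hu y).1]
  exact le_add_of_nonneg_left (ord_toK_nonneg c)

variable (hreg : ∀ y : X, coheight y = 1 → IsDiscreteValuationRing (X.presheaf.stalk y))
  (hufd : ∀ x : X, UniqueFactorizationMonoid (X.presheaf.stalk x))

include hreg hufd

theorem not_vanishesAt_iff (s : Γ(M, ⊤)) (x : X) :
    ¬ VanishesAt s x ↔ T.θ ⊤ trivial s ≠ 0 ∧ ∀ y : X, coheight y = 1 → y ⤳ x →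
      Scheme.ord (T.θ ⊤ trivial s) y = Scheme.ord (u y) y := by
  obtain ⟨c, hc⟩ := (hu x).exists_stalk (V := ⊤) trivial s
  rw [vanishesAt_iff (hu x) s hc, not_not, hc]
  constructor
  · intro h
    refine ⟨mul_ne_zero (toK_ne_zero h.ne_zero) (hu x).1, fun y _ hy => ?_⟩
    rw [Scheme.ord_mul (toK_ne_zero h.ne_zero) (hu x).1, ← toK_toStalk hy,
      ord_toK_of_isUnit (h.map _), zero_add, ((hu x).of_specializes hy).ord_eq (hu y)]
  · rintro ⟨h0, h⟩
    have := hufd x
    obtain ⟨a, ha, h1⟩ := exists_unit_of_forall_ord_eq_zero hreg x (toK x c)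
      (left_ne_zero_of_mul h0) fun y hy hyx => by
        have h2 := h y hy hyx
        rw [Scheme.ord_mul (left_ne_zero_of_mul h0) (hu x).1,
          ((hu x).of_specializes hyx).ord_eq (hu y)] at h2
        exact add_eq_right.1 h2
    rwa [← toK_injective x h1]

theorem exists_sec {g : X.functionField} (hg : g ≠ 0)
    (h : ∀ y : X, coheight y = 1 → Scheme.ord (u y) y ≤ Scheme.ord g y) :
    ∃ s : Γ(M, ⊤), T.θ ⊤ trivial s = g := by
  obtain ⟨s, hs⟩ := exists_of_ev (T := T) (V := ⊤) (g := g) fun z _ => ⟨_, hu z, by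
    have := hufd z
    obtain ⟨c, hc⟩ := exists_of_forall_ord_nonneg hreg z (g * (u z)⁻¹) fun y hy hyz => by
      rw [Scheme.ord_mul hg (inv_ne_zero (hu z).1), Q.ord_inv (hu z).1,
        ← ((hu z).of_specializes hyz).ord_eq (hu y)]
      have := h y hy
      omega
    exact ⟨c, by rw [hc, inv_mul_cancel_right₀ (hu z).1]⟩⟩
  exact ⟨s, hs trivial⟩

end Sch

theorem finite_ord {X : Scheme.{0}} [IsIntegral X] [IsNoetherian X] {M : X.Modules}
    {T : Ev (pv M) X.functionField} {u : X → X.functionField} (hu : ∀ x, Fr T x (u x)) :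
    {y : X | coheight y = 1 ∧ Scheme.ord (u y) y ≠ 0}.Finite := by
  obtain ⟨W, hW, h⟩ := (hu (genericPoint X)).nhds
  refine ((finite_codim_one (W : Set X)ᶜ W.isOpen.isClosed_compl fun h => h hW).union
    (finite_ord_ne_zero _ (hu (genericPoint X)).1)).subset fun y hy => ?_
  by_cases hyW : y ∈ W
  · exact Or.inr fun h1 => hy.2 (((h y hyW).ord_eq (hu y)).trans h1)
  · exact Or.inl ⟨hyW, hy.1⟩

/-- The prime divisor given by a point of codimension one. -/
def pd {n : ℕ} (V : Fuj.Var n) (y : V.X) (hy : coheight y = 1) : V.PrimeDiv := ⟨y, hy⟩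

theorem isSection_iff {n : ℕ} (V : Fuj.Var n) {D : V.Div} {e : V.X → ℤ}
    (h : ∀ y hy, D (pd V y hy) = -e y) (g : V.X.functionField) :
    Fuj.Var.IsSection D g ↔ (g ≠ 0 → ∀ y : V.X, coheight y = 1 → e y ≤ Scheme.ord g y) := by
  refine imp_congr_right fun _ => ⟨fun h1 y hy => ?_, fun h1 y => ?_⟩
  · have h2 : 0 ≤ Scheme.ord g y + D (pd V y hy) := h1 (pd V y hy)
    rw [h] at h2
    exact sub_nonneg.1 h2
  · have h2 : ∀ (z : V.X) (hz : coheight z = 1), 0 ≤ Scheme.ord g z + D (pd V z hz) := by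
      intro z hz
      rw [h]
      exact sub_nonneg.2 (h1 z hz)
    exact h2 y.1 y.2

theorem generatesAt_iff {n : ℕ} (V : Fuj.Var n) {D : V.Div} {e : V.X → ℤ}
    (h : ∀ y hy, D (pd V y hy) = -e y) (g : V.X.functionField) (x : V.X) :
    Fuj.Var.GeneratesAt D g x ↔
      g ≠ 0 ∧ ∀ y : V.X, coheight y = 1 → y ⤳ x → Scheme.ord g y = e y := by
  refine and_congr_right fun _ => ⟨fun h1 y hy hyx => ?_, fun h1 y hyx => ?_⟩
  · have h2 : Scheme.ord g y + D (pd V y hy) = 0 := h1 (pd V y hy) hyx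
    rw [h] at h2
    exact sub_eq_zero.1 h2
  · have h2 : ∀ (z : V.X) (hz : coheight z = 1), z ⤳ x →
        Scheme.ord g z + D (pd V z hz) = 0 := by
      intro z hz hzx
      rw [h]
      exact sub_eq_zero.2 (h1 z hz hzx)
    exact h2 y.1 y.2 hyx

theorem main_var (hub : Sch.HubFujita) (n : ℕ) (V : Fuj.Var n) (L : V.X.Modules)
    (hL : IsLineBundle L) :
    IsLineBundle (canonical V.str n) ∧
      (∀ m, IsLineBundle (tensor (canonical V.str n) (pow L m))) ∧
      (IsAmple L → ∀ m, n + 1 ≤ m →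
        IsGloballyGenerated (tensor (canonical V.str n) (pow L m))) := by
  let _ : Algebra ℂ V.X.functionField := Fuj.Var.instAlgebraK V
  have hf : P297L.Compat (X := V.X) V.str := fun c =>
    (gk_r (X := V.X) (W := ⊤) (W' := ⊤) le_top trivial _).symm
  have hs : SmoothOfRelativeDimension n (Y := Spec (CommRingCat.of ℂ)) V.str := V.smooth
  have : CompactSpace Fuj.SpecC := inferInstanceAs (CompactSpace (Spec (CommRingCat.of ℂ)))
  have : CompactSpace V.X := QuasiCompact.compactSpace_of_compactSpace V.str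
  have : IsNoetherian V.X := {}
  let _ : V.X.Over Q.SpecC := ⟨V.str⟩
  have : Smooth (V.X ↘ Q.SpecC) := SmoothOfRelativeDimension.smooth n V.str
  have hreg : ∀ y : V.X, coheight y = 1 → IsDiscreteValuationRing (V.X.presheaf.stalk y) :=
    (Q.regOne_of_smooth V.X).dvr
  have hufd : ∀ x : V.X, UniqueFactorizationMonoid (V.X.presheaf.stalk x) :=
    Q.ufd_stalk_of_smooth V.X
  obtain ⟨T, hT⟩ := exists_ev_of_isLineBundle hL
  choose u hu using hT
  have h1 : ∃ T0 : Ev (pv (canonical V.str n)) V.X.functionField, ∀ x, ∃ w, Fr T0 x w := by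
    obtain ⟨b⟩ := P297L.exists_basis_der hf n
    obtain ⟨T0, h⟩ := P297L.exists_ev_canonical hf b.det (v := b)
      (by rw [b.det_self]; exact one_ne_zero)
    exact ⟨T0, fun x => (h x).elim fun d hd => ⟨_, hd.2.1⟩⟩
  refine ⟨h1.elim fun T0 h => isLineBundle_of_fr T0 h, fun m => ?_, fun hA m hm x => ?_⟩
  · obtain ⟨T0, h0⟩ := h1
    obtain ⟨T1, h2⟩ := exists_ev_pow T m
    obtain ⟨T2, h3⟩ := exists_ev_tensor T0 T1
    exact isLineBundle_of_fr T2 fun x => (h0 x).elim fun w hw => ⟨_, h3 x _ _ hw (h2 x _ (hu x))⟩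
  let D : V.Div := Finsupp.ofSupportFinite (fun y => -Scheme.ord (X := V.X) (u y.1) y.1)
    (((finite_ord hu).preimage Subtype.val_injective.injOn).subset
      fun y hy => ⟨y.2, fun h => hy (neg_eq_zero.2 h)⟩)
  have hD : ∀ (k : ℕ) (y : V.X) (hy : coheight y = 1),
      (k • D) (pd V y hy) = -Scheme.ord (u y ^ k) y := by
    intro k y hy
    rw [Q.ord_pow (hu y).1, ← mul_neg, ← nsmul_eq_mul]
    rfl
  have hDA : Fuj.Var.IsAmple D := by
    intro z
    obtain ⟨k, s, U, hk, hU, hz, h⟩ := hA z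
    obtain ⟨T1, h2⟩ := exists_ev_pow T k
    have h3 : ∀ y, Fr T1 y (u y ^ k) := fun y => h2 y _ (hu y)
    exact ⟨k, T1.θ ⊤ trivial s, U, hk,
      (isSection_iff V (hD k) _).2 fun h0 y _ => ord_le_sec h3 s h0 y, hU, hz, fun y => (h y).trans
      ((not_vanishesAt_iff h3 hreg hufd s y).trans (generatesAt_iff V (hD k) _ y).symm)⟩
  obtain ⟨⟨κ, hκ⟩, hres⟩ := Fuj.result_of_hub hub n V D hDA
  obtain ⟨g, hg, hgx⟩ := hres κ hκ m hm x
  obtain ⟨ω, ⟨v, hv⟩, hω⟩ := hκ
  obtain ⟨T0, h0⟩ := P297L.exists_ev_canonical hf ω (v := v) hv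
  choose d hd0 hF hd using h0
  have hp : ∀ (w : V.Der) (y : V.X),
      Fuj.Var.IsRegularFieldAt w y ↔ P297L.Pres (X := V.X) w y := fun w y =>
    ⟨fun h a => (h _ ⟨a, rfl⟩).imp fun _ h => h.symm,
      fun h _ ⟨a, ha⟩ => ha ▸ (h a).imp fun _ h => h.symm⟩
  let o : V.X → V.X.functionField := fun y => ω (d y)
  have ho : ∀ y, o y ≠ 0 := hd0
  have hκy : ∀ (y : V.X) (hy : coheight y = 1), κ (pd V y hy) = Scheme.ord (o y) y := by
    intro y hy
    refine le_antisymm ((hω (pd V y hy)).2 ⟨d y,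
      fun i => (hp _ _).2 ((hd y y specializes_rfl).1 i), hd0 y, rfl⟩) ?_
    obtain ⟨w, hw, hw0, h5⟩ := (hω (pd V y hy)).1
    obtain ⟨c, hc⟩ := (hd y y specializes_rfl).2 w fun i => (hp _ _).1 (hw i)
    have h6 : toK y c * o y ≠ 0 := fun h => hw0 (hc.trans h)
    have h7 : κ (pd V y hy) = Scheme.ord (toK y c * o y) y :=
      h5.symm.trans (congrArg (fun t => Scheme.ord (X := V.X) t y) hc)
    rw [h7, Scheme.ord_mul (left_ne_zero_of_mul h6) (ho y)]
    exact le_add_of_nonneg_left (ord_toK_nonneg c)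
  obtain ⟨T1, h2⟩ := exists_ev_pow T m
  obtain ⟨T2, h3⟩ := exists_ev_tensor T0 T1
  have h4 : ∀ y, Fr T2 y ((o y)⁻¹ * u y ^ m) := fun y => h3 y _ _ (hF y) (h2 y _ (hu y))
  have h5 : ∀ (y : V.X) (hy : coheight y = 1), (κ + m • D) (pd V y hy) =
      -Scheme.ord ((o y)⁻¹ * u y ^ m) y := by
    intro y hy
    rw [Finsupp.add_apply, hD, hκy, Scheme.ord_mul (inv_ne_zero (ho y))
      (pow_ne_zero m (hu y).1), Q.ord_inv (ho y), neg_add, neg_neg]
  have h6 := (generatesAt_iff V h5 g x).1 hgx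
  obtain ⟨s, hs⟩ := exists_sec h4 hreg hufd (g := g) h6.1 ((isSection_iff V h5 g).1 hg h6.1)
  refine ⟨s, (not_vanishesAt_iff h4 hreg hufd s x).2 ?_⟩
  rw [hs]
  exact h6

theorem main_of_hub (hub : Sch.HubFujita) (n : ℕ) (X : Scheme.{0})
    (f : X ⟶ Spec (CommRingCat.of ℂ)) [hs : SmoothOfRelativeDimension n f] [hp : IsProper f]
    [ConnectedSpace X] (L : X.Modules) (hL : IsLineBundle L) :
    IsLineBundle (canonical f n) ∧ (∀ m, IsLineBundle (tensor (canonical f n) (pow L m))) ∧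
      (IsAmple L → ∀ m, n + 1 ≤ m → IsGloballyGenerated (tensor (canonical f n) (pow L m))) :=
  have := SmoothOfRelativeDimension.smooth n f
  main_var hub n
    { X := X, str := f, int := P297G93.isIntegral_of_smooth f, smooth := hs, proper := hp } L hL

end

end Vale.Agent.P271L
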