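import Vale.Agent.P271L61.B
import Mathlib.LinearAlgebra.Determinant

/-!
# Local frames of the top exterior power
-/

open CategoryTheory Opposite AlgebraicGeometry TopologicalSpace

namespace Vale.Agent.P271L

noncomputable section

theorem alt_det {R M N : Type} [CommRing R] [AddCommGroup M] [Module R M] [AddCommGroup N]
    [Module R N] {n : ℕ} (f : M [⋀^Fin n]→ₗ[R] N) (b : Fin n → M) (a : Fin n → Fin n → R) :
    f (fun j => ∑ i, a j i • b i) = (Matrix.of a).det • f b := by
  have h : f.compLinearMap (Fintype.linearCombination R b) =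
      (Matrix.detRowAlternating (n := Fin n) (R := R)).smulRight (f b) := by
    refine (Pi.basisFun R (Fin n)).ext_alternating fun v hv => ?_
    let σ := Equiv.ofBijective v (Finite.injective_iff_bijective.1 hv)
    have h1 : f (fun i => b (v i)) = _ := f.map_perm b σ
    have h2 : (Matrix.detRowAlternating (n := Fin n) (R := R))
        (fun i => Pi.basisFun R (Fin n) (v i)) = _ :=
      (Matrix.detRowAlternating (n := Fin n) (R := R)).map_perm
        (fun i => Pi.basisFun R (Fin n) i) σ
    have h3 : (Matrix.detRowAlternating (n := Fin n) (R := R))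
        (fun i => Pi.basisFun R (Fin n) i) = 1 := by
      rw [← Pi.basisFun_det]
      exact (Pi.basisFun R (Fin n)).det_self
    have h4 : (fun i => Fintype.linearCombination R b (Pi.basisFun R (Fin n) (v i))) =
        fun i => b (v i) := funext fun i => by
      rw [Pi.basisFun_apply, Fintype.linearCombination_apply_single, one_smul]
    rw [AlternatingMap.compLinearMap_apply, AlternatingMap.smulRight_apply, h4, h1, h2, h3,
      smul_assoc, one_smul]
  exact DFunLike.congr_fun h a

theorem exists_wedge_lift {R M K : Type} [CommRing R] [AddCommGroup M] [Module R M] [CommRing K]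
    (φ : R →+* K) {n : ℕ} (g : M →+ (Fin n → K)) (hg : ∀ a x, g (a • x) = φ a • g x) :
    ∃ F : ⋀[R]^n M →+ K, (∀ (a : R) t, F (a • t) = φ a • F t) ∧
      ∀ s, F (exteriorPower.ιMulti R n s) = (Matrix.of fun i => g (s i)).det := by
  let _ : Algebra R K := φ.toAlgebra
  have hu : ∀ [DecidableEq (Fin n)] (s : Fin n → M) (i : Fin n) (x : M),
      (fun j => g (Function.update s i x j)) = Function.update (fun j => g (s j)) i (g x) :=
    fun s i x => funext fun j => Function.apply_update (fun _ y => g y) s i x j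
  let alt : M [⋀^Fin n]→ₗ[R] K :=
    { toFun := fun s => Matrix.detRowAlternating (n := Fin n) (R := K) fun i => g (s i)
      map_update_add' := fun s i x y => by
        rw [hu, hu, hu, map_add, AlternatingMap.map_update_add]
      map_update_smul' := fun s i a x => by
        rw [hu, hu, hg, AlternatingMap.map_update_smul]
        rfl
      map_eq_zero_of_eq' := fun s i j h hij =>
        AlternatingMap.map_eq_zero_of_eq _ _ (congrArg g h) hij }
  exact ⟨(exteriorPower.alternatingMapLinearEquiv alt).toAddMonoidHom,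
    fun a t => (exteriorPower.alternatingMapLinearEquiv alt).map_smul a t,
    fun s => exteriorPower.alternatingMapLinearEquiv_apply_ιMulti alt s⟩

section Cat

variable {A : Type} [CommRing A] (M : ModuleCat.{0} A) {n : ℕ}

theorem mk_det (b : Fin n → M) (a : Fin n → Fin n → A) :
    ModuleCat.exteriorPower.mk (M := M) (fun j => ∑ i, a j i • b i) =
      (Matrix.of a).det • ModuleCat.exteriorPower.mk (M := M) b :=
  alt_det (exteriorPower.ιMulti A n (M := M)) b a

theorem mk_induction {C : M.exteriorPower n → Prop} (t : M.exteriorPower n) (h0 : C 0)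
    (h1 : ∀ v, C (ModuleCat.exteriorPower.mk (M := M) v)) (h2 : ∀ s t, C s → C t → C (s + t))
    (h3 : ∀ (a : A) t, C t → C (a • t)) : C t := by
  have key : ∀ t : ⋀[A]^n M, t ∈ Submodule.span A (Set.range (exteriorPower.ιMulti A n)) →
      C t := by
    intro t ht
    induction ht using Submodule.span_induction with
    | mem _ hx => obtain ⟨v, rfl⟩ := hx; exact h1 v
    | zero => exact h0
    | add s t _ _ hs ht => exact h2 s t hs ht
    | smul a t _ ht => exact h3 a t ht
  exact key t (by rw [exteriorPower.ιMulti_span]; trivial)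

theorem exists_mk_lift {K : Type} [CommRing K] (φ : A →+* K) (g : M →+ (Fin n → K))
    (hg : ∀ a x, g (a • x) = φ a • g x) :
    ∃ F : M.exteriorPower n →+ K, (∀ (a : A) t, F (a • t) = φ a • F t) ∧
      ∀ s, F (ModuleCat.exteriorPower.mk (M := M) s) = (Matrix.of fun i => g (s i)).det :=
  exists_wedge_lift φ g hg

end Cat

variable {X : Scheme.{0}} {P : Pre X} {W W' : X.Opens} {n : ℕ}

/-- The wedge product of sections. -/
def wd (P : Pre X) (n : ℕ) (W : X.Opens) (v : Fin n → S P W) : S (preWedge n P) W :=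
  ModuleCat.exteriorPower.mk (M := P.obj (op W)) v

theorem res_wd (e : W' ≤ W) (v : Fin n → S P W) :
    res (preWedge n P) e (wd P n W v) = wd P n W' fun j => res P e (v j) :=
  wedgeMap_mk (P.map (homOfLE e).op) n v

theorem wd_det (b : Fin n → S P W) (a : Fin n → Fin n → Γ(X, W)) :
    wd P n W (fun j => ∑ i, a j i • b i) = (Matrix.of a).det • wd P n W b :=
  mk_det (P.obj (op W)) b a

theorem wedge_induction {C : S (preWedge n P) W → Prop} (t : S (preWedge n P) W) (h0 : C 0)
    (h1 : ∀ v, C (wd P n W v)) (h2 : ∀ s t, C s → C t → C (s + t))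
    (h3 : ∀ (a : Γ(X, W)) t, C t → C (a • t)) : C t :=
  mk_induction (P.obj (op W)) (C := C) t h0 h1 h2 h3

theorem exists_common {J : Type} [Finite J] (U : J → X.Opens) {z : X} (hz : ∀ j, z ∈ U j)
    (hW : z ∈ W) : ∃ V : X.Opens, V ≤ W ∧ z ∈ V ∧ ∀ j, V ≤ U j :=
  ⟨⟨W ∩ ⋂ j, U j, W.isOpen.inter (isOpen_iInter_of_finite fun j => (U j).isOpen)⟩,
    fun _ h => h.1, ⟨hW, Set.mem_iInter.2 hz⟩, fun j _ h => Set.mem_iInter.1 h.2 j⟩

theorem Gen.wedge {b : Fin n → S P W} (hb : Gen P W b) :
    Gen1 (preWedge n P) W (wd P n W b) := by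
  intro V e t z hz
  induction t using wedge_induction with
  | h0 => exact ⟨V, le_rfl, hz, 0, by rw [map_zero, zero_smul]⟩
  | h1 v =>
    choose U e1 hU a ha using fun j => hb V e (v j) z hz
    obtain ⟨V1, e2, hz1, e3⟩ := exists_common U hU hz
    refine ⟨V1, e2, hz1, (Matrix.of fun j i => r (e3 j) (a j i)).det, ?_⟩
    rw [res_wd, res_wd, ← wd_det]
    refine congrArg (wd P n V1) (funext fun j => ?_)
    rw [← res_res (e1 j) (e3 j), ha, map_sum]
    exact Finset.sum_congr rfl fun i _ => by rw [res_smul, res_res]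
  | h2 s t hs ht =>
    obtain ⟨V1, e1, hz1, a, ha⟩ := hs
    obtain ⟨V2, e2, hz2, a', ha'⟩ := ht
    refine ⟨V1 ⊓ V2, inf_le_left.trans e1, ⟨hz1, hz2⟩, r inf_le_left a + r inf_le_right a', ?_⟩
    have h1 := congrArg (res (preWedge n P) (inf_le_left : V1 ⊓ V2 ≤ V1)) ha
    have h2 := congrArg (res (preWedge n P) (inf_le_right : V1 ⊓ V2 ≤ V2)) ha'
    rw [res_smul, res_res, res_res] at h1 h2
    rw [map_add, h1, h2, add_smul]
  | h3 c t ht =>
    obtain ⟨V1, e1, hz1, a, ha⟩ := ht
    exact ⟨V1, e1, hz1, r e1 c * a, by rw [res_smul, ha, mul_smul]⟩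

variable [IsIntegral X]

theorem Ev.exists_wedge (T : Ev P (Fin n → X.functionField)) :
    ∃ T' : Ev (preWedge n P) X.functionField, ∀ (W : X.Opens) (h : genericPoint X ∈ W)
      (s : Fin n → S P W), T'.θ W h (wd P n W s) = (Matrix.of fun i => T.θ W h (s i)).det := by
  have key : ∀ (W : X.Opens) (h : genericPoint X ∈ W),
      ∃ F : S (preWedge n P) W →+ X.functionField,
        (∀ (a : Γ(X, W)) t, F (a • t) = gk W h a • F t) ∧
        ∀ s, F (wd P n W s) = (Matrix.of fun i => T.θ W h (s i)).det :=
    fun W h => exists_mk_lift (P.obj (op W)) (gk W h) (T.θ W h) (T.smul W h)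
  choose F hF1 hF2 using key
  refine ⟨⟨F, hF1, fun {W W'} e h t => ?_⟩, hF2⟩
  induction t using wedge_induction with
  | h0 => rw [map_zero, map_zero, map_zero]
  | h1 v => simp only [res_wd, hF2, T.res]
  | h2 s t hs ht => rw [map_add, map_add, map_add, hs, ht]
  | h3 c t ht => rw [res_smul, hF1, hF1, ht, gk_r]

end

end Vale.Agent.P271L
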