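import Vale.Agent.P271L61.C
import Vale.Agent.P271L61.W
import Vale.Agent.P271L61.Alg

/-!
# Local frames of the canonical sheaf
-/

open CategoryTheory Opposite AlgebraicGeometry TopologicalSpace

namespace Vale.Agent.P271L

open Vale.Agent.P299.G

noncomputable section

section Cat

variable {B : CommRingCat.{0}} (φ : CommRingCat.of ℂ ⟶ B)

theorem kdc_induction {C : CommRingCat.KaehlerDifferential φ → Prop}
    (t : CommRingCat.KaehlerDifferential φ) (h0 : C 0)
    (h1 : ∀ a, C (CommRingCat.KaehlerDifferential.d a)) (h2 : ∀ s t, C s → C t → C (s + t))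
    (h3 : ∀ (a : B) t, C t → C (a • t)) : C t := by
  let _ : Algebra ℂ B := φ.hom.toAlgebra
  exact kd_induction (A := B) (C := C) t h0 h1 h2 h3

variable {K : Type} [Field K] [Algebra ℂ K] (g : B →+* K)

theorem exists_prc (hK : ∀ c, algebraMap ℂ K c = g (φ.hom c)) :
    ∃ F : CommRingCat.KaehlerDifferential φ →+ (Derivation ℂ K K → K),
      (∀ (a : B) p, F (a • p) = g a • F p) ∧
        ∀ a v, F (CommRingCat.KaehlerDifferential.d a) v = v (g a) := by
  let _ : Algebra ℂ B := φ.hom.toAlgebra
  let _ : Algebra B K := g.toAlgebra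
  have : IsScalarTower ℂ B K := IsScalarTower.of_algebraMap_eq hK
  exact exists_pr (A := B) (K := K)

theorem exists_framec (hK : ∀ c, algebraMap ℂ K c = g (φ.hom c)) {n : ℕ}
    (hg : @IsFractionRing B _ K _ g.toAlgebra) (h : φ.hom.IsStandardSmoothOfRelativeDimension n)
    (F : CommRingCat.KaehlerDifferential φ →+ (Derivation ℂ K K → K))
    (hF : ∀ (a : B) p, F (a • p) = g a • F p)
    (hD : ∀ a v, F (CommRingCat.KaehlerDifferential.d a) v = v (g a)) :
    ∃ (b : Fin n → CommRingCat.KaehlerDifferential φ) (d : Fin n → Derivation ℂ K K),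
      (∀ p, ∃ a : Fin n → B, p = ∑ i, a i • b i) ∧ (∀ j a, ∃ c, d j (g a) = g c) ∧
      ∀ w : Derivation ℂ K K, w = ∑ i, F (b i) w • d i := by
  let _ : Algebra ℂ B := φ.hom.toAlgebra
  let _ : Algebra B K := g.toAlgebra
  have : IsScalarTower ℂ B K := IsScalarTower.of_algebraMap_eq hK
  exact exists_frame (A := B) (K := K) h F hF hD

end Cat

variable {X : Scheme.{0}} (f : X ⟶ Spec (CommRingCat.of ℂ)) {W W' : X.Opens} {n : ℕ}

/-- The presheaf of the Kähler differentials. -/
def om : Pre X := PresheafOfModules.DifferentialsConstruction.relativeDifferentials' (const f)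

/-- The differential of a function. -/
def dd (W : X.Opens) (a : Γ(X, W)) : S (om f) W :=
  CommRingCat.KaehlerDifferential.d (f := cst f W) a

theorem res_dd (e : W' ≤ W) (a : Γ(X, W)) : res (om f) e (dd f W a) = dd f W' (r e a) :=
  PresheafOfModules.DifferentialsConstruction.relativeDifferentials'_map_d (const f)
    (homOfLE e).op a

theorem dd_mul (a b : Γ(X, W)) : dd f W (a * b) = a • dd f W b + b • dd f W a :=
  (CommRingCat.KaehlerDifferential.D (cst f W)).d_mul a b

theorem om_induction {C : S (om f) W → Prop} (t : S (om f) W) (h0 : C 0)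
    (h1 : ∀ a, C (dd f W a)) (h2 : ∀ s t, C s → C t → C (s + t))
    (h3 : ∀ (a : Γ(X, W)) t, C t → C (a • t)) : C t :=
  kdc_induction (cst f W) (C := C) t h0 h1 h2 h3

/-- Generators of the differentials on an affine open set are local generators. -/
theorem gen_om (hW : IsAffineOpen W) {b : Fin n → S (om f) W}
    (hb : ∀ p, ∃ a : Fin n → Γ(X, W), p = ∑ i, a i • b i) : Gen (om f) W b := by
  intro V e p z hz
  obtain ⟨g, hg, hzg⟩ := hW.exists_basicOpen_le ⟨z, hz⟩ (e hz)
  refine ⟨X.basicOpen g, hg, hzg, ?_⟩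
  have hl := hW.isLocalization_basicOpen g
  let N : Submodule Γ(X, X.basicOpen g) (S (om f) (X.basicOpen g)) :=
    Submodule.span _ (Set.range fun i => res (om f) (hg.trans e) (b i))
  have h1 : ∀ q : S (om f) W, res (om f) (hg.trans e) q ∈ N := by
    intro q
    obtain ⟨a, rfl⟩ := hb q
    rw [map_sum]
    refine N.sum_mem fun i _ => ?_
    rw [res_smul]
    exact N.smul_mem _ (Submodule.subset_span ⟨i, rfl⟩)
  have h2 : ∀ q : S (om f) (X.basicOpen g), q ∈ N := by
    intro q
    induction q using om_induction with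
    | h0 => exact N.zero_mem
    | h1 c =>
      obtain ⟨⟨a, s⟩, hs⟩ := IsLocalization.surj (Submonoid.powers g) c
      obtain ⟨t, ht⟩ := (IsLocalization.map_units Γ(X, X.basicOpen g) s).exists_left_inv
      have h3 : c * r (hg.trans e) s.1 = r (hg.trans e) a := hs
      have h4 : t * r (hg.trans e) s.1 = 1 := ht
      have h5 : dd f _ c = t • (res (om f) (hg.trans e) (dd f W a) -
          c • res (om f) (hg.trans e) (dd f W s.1)) := by
        rw [res_dd, res_dd, ← h3, dd_mul, add_sub_cancel_left, smul_smul, h4, one_smul]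
      rw [h5]
      exact N.smul_mem _ (N.sub_mem (h1 _) (N.smul_mem _ (h1 _)))
    | h2 s t hs ht => exact N.add_mem hs ht
    | h3 a t ht => exact N.smul_mem a ht
  obtain ⟨a, ha⟩ := (Submodule.mem_span_range_iff_exists_fun _).1 (h2 (res (om f) hg p))
  exact ⟨a, ha.symm⟩

theorem exists_chart [h : SmoothOfRelativeDimension n f] (x : X) :
    ∃ W : X.Opens, IsAffineOpen W ∧ x ∈ W ∧ (cst f W).hom.IsStandardSmoothOfRelativeDimension n := by
  obtain ⟨U, hU, W, hW, hx, e, hf⟩ := h.exists_isStandardSmoothOfRelativeDimension x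
  have hsub : Subsingleton (Spec (CommRingCat.of ℂ)) :=
    inferInstanceAs (Subsingleton (PrimeSpectrum ℂ))
  have hUt : U = ⊤ := by
    refine Opens.ext (Set.eq_univ_of_forall fun y => ?_)
    rw [Subsingleton.elim y (f x)]
    exact e hx
  subst hUt
  have h2 : (cst f W).hom = (f.appLE ⊤ W e).hom.comp
      (Scheme.ΓSpecIso (CommRingCat.of ℂ)).symm.commRingCatIsoToRingEquiv.toRingHom := by
    ext c
    rfl
  refine ⟨W, hW, hx, ?_⟩
  rw [h2]
  exact RingHom.isStandardSmoothOfRelativeDimension_respectsIso.2 _ _ hf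

variable [IsIntegral X] [Algebra ℂ X.functionField]

/-- The derivation `v` preserves the local ring at `y`. -/
def Rg (v : Derivation ℂ X.functionField X.functionField) (y : X) : Prop :=
  ∀ a : X.presheaf.stalk y, ∃ c : X.presheaf.stalk y, toK y c = v (toK y a)

theorem rg_of_chart (hW : IsAffineOpen W) {y : X} (hy : y ∈ W)
    {v : Derivation ℂ X.functionField X.functionField}
    (hv : ∀ a, ∃ c, v (gk W (gen_mem hy) a) = gk W (gen_mem hy) c) : Rg v y := by
  intro t
  have := hW.isLocalization_stalk ⟨y, hy⟩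
  let _ := TopCat.Presheaf.algebra_section_stalk X.presheaf (U := W) ⟨y, hy⟩
  obtain ⟨⟨a, s⟩, hs⟩ := IsLocalization.surj (hW.primeIdealOf ⟨y, hy⟩).asIdeal.primeCompl t
  obtain ⟨u, hu⟩ := (IsLocalization.map_units (X.presheaf.stalk y) s).exists_left_inv
  have h1 : t * X.presheaf.germ W y hy s.1 = X.presheaf.germ W y hy a := hs
  have h2 : u * X.presheaf.germ W y hy s.1 = 1 := hu
  obtain ⟨a', ha'⟩ := hv a
  obtain ⟨s', hs'⟩ := hv s.1
  have h3 := congrArg (toK y) h1
  have h4 := congrArg (toK y) h2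
  rw [map_mul, toK_germ] at h3 h4
  rw [toK_germ] at h3
  rw [map_one] at h4
  refine ⟨u * (X.presheaf.germ W y hy a' - t * X.presheaf.germ W y hy s'), ?_⟩
  rw [map_mul, map_sub, map_mul, toK_germ, toK_germ, ← ha', ← hs', ← h3, Derivation.leibniz,
    smul_eq_mul, smul_eq_mul, add_sub_cancel_left, ← mul_assoc, h4, one_mul]

variable (hK : ∀ c, algebraMap ℂ X.functionField c = gk ⊤ trivial ((cst f ⊤).hom c))

include hK

theorem alg_eq (h : genericPoint X ∈ W) (c : ℂ) :
    algebraMap ℂ X.functionField c = gk W h ((cst f W).hom c) := by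
  rw [hK, ← gk_r le_top h, ← cst_map f (homOfLE (le_top : W ≤ ⊤)).op]
  rfl

theorem exists_ev_om : ∃ T : Ev (om f)
    (Derivation ℂ X.functionField X.functionField → X.functionField),
    ∀ (W : X.Opens) (h : genericPoint X ∈ W) a v, T.θ W h (dd f W a) v = v (gk W h a) := by
  have key : ∀ (W : X.Opens) (h : genericPoint X ∈ W), ∃ F : S (om f) W →+
      (Derivation ℂ X.functionField X.functionField → X.functionField),
      (∀ (a : Γ(X, W)) p, F (a • p) = gk W h a • F p) ∧
        ∀ a v, F (dd f W a) v = v (gk W h a) :=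
    fun W h => exists_prc (cst f W) (gk W h) (alg_eq f hK h)
  choose F hF1 hF2 using key
  refine ⟨⟨F, hF1, fun {W W'} e h t => ?_⟩, hF2⟩
  induction t using om_induction with
  | h0 => rw [map_zero, map_zero, map_zero]
  | h1 a => exact funext fun v => by rw [res_dd, hF2, hF2, gk_r]
  | h2 s t hs ht => rw [map_add, map_add, map_add, hs, ht]
  | h3 c t ht => rw [res_smul, hF1, hF1, ht, gk_r]

/-- The sections of the canonical sheaf as rational multiples of a rational form `ω`. -/
theorem exists_ev_canonical [SmoothOfRelativeDimension n f]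
    (ω : Derivation ℂ X.functionField X.functionField [⋀^Fin n]→ₗ[X.functionField] X.functionField)
    {v : Fin n → Derivation ℂ X.functionField X.functionField} (hv : ω v ≠ 0) :
    ∃ T : Ev (pv (canonical f n)) X.functionField, ∀ x : X,
      ∃ d : Fin n → Derivation ℂ X.functionField X.functionField,
        ω d ≠ 0 ∧ Fr T x (ω d)⁻¹ ∧ ∀ y : X, y ⤳ x → (∀ i, Rg (d i) y) ∧
          ∀ w : Fin n → Derivation ℂ X.functionField X.functionField, (∀ i, Rg (w i) y) →
            ∃ c : X.presheaf.stalk y, ω w = toK y c * ω d := by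
  obtain ⟨T0, h0⟩ := exists_ev_om f hK
  obtain ⟨T1, h1⟩ := T0.exists_sh
  let T2 : Ev (sh (om f)) (Fin n → X.functionField) :=
    ⟨fun W h => AddMonoidHom.mk' (fun p j => T1.θ W h p (v j))
        fun p q => funext fun j => congrFun (map_add (T1.θ W h) p q) (v j),
      fun W h a p => funext fun j => congrFun (T1.smul W h a p) (v j),
      fun e h p => funext fun j => congrFun (T1.res e h p) (v j)⟩
  obtain ⟨T3, h3⟩ := T2.exists_wedge
  obtain ⟨T4, h4⟩ := T3.exists_sh
  let T5 : Ev (sh (preWedge n (sh (om f)))) X.functionField :=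
    ⟨fun W h => AddMonoidHom.mk' (fun p => T4.θ W h p * (ω v)⁻¹)
        fun p q => by rw [map_add, add_mul],
      fun W h a p => (congrArg (· * (ω v)⁻¹) (T4.smul W h a p)).trans (mul_assoc _ _ _),
      fun e h p => congrArg (· * (ω v)⁻¹) (T4.res e h p)⟩
  refine ⟨T5, fun x => ?_⟩
  obtain ⟨W, hW, hx, hs⟩ := exists_chart f (n := n) x
  have hne : Nonempty W := ⟨⟨x, hx⟩⟩
  obtain ⟨b, d, hb, hd, hw⟩ : ∃ (b : Fin n → S (om f) W)
      (d : Fin n → Derivation ℂ X.functionField X.functionField),
      (∀ p, ∃ a : Fin n → Γ(X, W), p = ∑ i, a i • b i) ∧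
      (∀ j a, ∃ c, d j (gk W (gen_mem hx) a) = gk W (gen_mem hx) c) ∧
      ∀ w, w = ∑ i, T0.θ W (gen_mem hx) (b i) w • d i :=
    exists_framec (cst f W) (gk W (gen_mem hx)) (alg_eq f hK _)
      (functionField_isFractionRing_of_isAffineOpen X W hW) hs (T0.θ W (gen_mem hx))
      (T0.smul W _) (h0 W _)
  have hω : ∀ w : Fin n → Derivation ℂ X.functionField X.functionField,
      ω w = (Matrix.of fun j i => T0.θ W (gen_mem hx) (b i) (w j)).det * ω d := fun w =>
    (congrArg ω (funext fun j => hw (w j))).trans (alt_det ω d _)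
  have hd0 : ω d ≠ 0 := fun h => hv (by rw [hω, h, mul_zero])
  refine ⟨d, hd0, ⟨inv_ne_zero hd0, W, hx, eta (preWedge n (sh (om f))) W
    (wd (sh (om f)) n W fun i => eta (om f) W (b i)), (gen_om f hW hb).sh.wedge.sh, ?_⟩,
    fun y hy => ⟨fun i => rg_of_chart hW (hy.mem_open W.isOpen hx) (hd i), fun w hw' => ?_⟩⟩
  · change T4.θ W _ _ * (ω v)⁻¹ = _
    have h5 : (Matrix.of fun i => T2.θ W (gen_mem hx) (eta (om f) W (b i))) =
        (Matrix.of fun j i => T0.θ W (gen_mem hx) (b i) (v j)).transpose :=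
      Matrix.ext fun i j => congrFun (h1 W _ (b i)) (v j)
    have h6 := hω v
    rw [h4, h3, h5, Matrix.det_transpose, mul_inv_eq_iff_eq_mul₀ hv, h6, mul_comm _ (ω d),
      inv_mul_cancel_left₀ hd0]
  · have hyW : y ∈ W := hy.mem_open W.isOpen hx
    have h5 : ∀ (p : S (om f) W) j, ∃ c : X.presheaf.stalk y,
        toK y c = T0.θ W (gen_mem hx) p (w j) := by
      intro p j
      induction p using om_induction with
      | h0 => exact ⟨0, by rw [map_zero, map_zero, Pi.zero_apply]⟩
      | h1 a =>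
        obtain ⟨c, hc⟩ := hw' j (X.presheaf.germ W y hyW a)
        exact ⟨c, by rw [hc, h0, toK_germ]⟩
      | h2 s t hs ht =>
        obtain ⟨c, hc⟩ := hs
        obtain ⟨c', hc'⟩ := ht
        exact ⟨c + c', by rw [map_add, map_add, Pi.add_apply, hc, hc']⟩
      | h3 a t ht =>
        obtain ⟨c, hc⟩ := ht
        exact ⟨X.presheaf.germ W y hyW a * c, by
          rw [map_mul, T0.smul, Pi.smul_apply, hc, toK_germ, smul_eq_mul]⟩
    choose c hc using h5
    refine ⟨(Matrix.of fun j i => c (b i) j).det, ?_⟩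
    rw [hω, RingHom.map_det]
    exact congrArg (fun m => Matrix.det m * ω d) (Matrix.ext fun j i => (hc (b i) j).symm)

end

end Vale.Agent.P271L
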